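import Vale.Agent.P231.S3D.Lam
import Vale.Agent.P231.S3G.Sub
import Vale.Agent.P231.S3S.B1
import Vale.Agent.P231.S2II.Fr
import Vale.Agent.P231.Co.Quo
import Vale.Agent.P231.H304.Alpha

/-!
# P231, stage 3: the natural form of the standard family is the differential of a basic form which
vanishes outside the disc bundle
-/

set_option maxSynthPendingDepth 3
set_option linter.unusedSectionVars false
set_option linter.unusedVariables false

open Bundle Manifold Set Filter Module MeasureTheory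
open scoped ContDiff Manifold Topology ENNReal

namespace Vale.Agent.P231.S3D

noncomputable section

open Vale.Agent.P234 Vale.Agent.P231 Vale.Agent.P231.Fm Vale.Agent.P231.W Vale.Agent.P231.WR
open Vale.Agent.P231.WF Vale.Agent.P231.H766 Vale.Agent.P231.S2N Vale.Agent.P231.S3S
  Vale.Agent.P231.H584

variable {E : Type*} [NormedAddCommGroup E] [NormedSpace ℝ E]
  {M : Type*} [MetricSpace M] [ChartedSpace E M]
  [RiemannianBundle (fun x : M => TangentSpace 𝓘(ℝ, E) x)]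
  {e : ∀ x : M, TangentSpace 𝓘(ℝ, E) x → M}
  [FiniteDimensional ℝ E] [IsManifold 𝓘(ℝ, E) ∞ M]
  [IsContMDiffRiemannianBundle 𝓘(ℝ, E) ∞ E (fun x : M => TangentSpace 𝓘(ℝ, E) x)]
  [CompactSpace M] [ConnectedSpace M] [IsRiemannianManifold 𝓘(ℝ, E) M]

variable {D : ℝ}

/-- the sphere bundle of pairs is a quotient map onto the unit tangent bundle -/
theorem quo_v (F : Facts e) (hD : 0 < D) (hB : InjGE e D) (hdiam : ∀ p q : M, dist p q ≤ D)
    {l : ℕ} [NeZero l] (hP : ∀ x y : M, dist x y = D → finrank ℝ (H775.Pl e D x y) = l + 1) :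
    Co.IsQuo (dPr e D) (dUT E M) Pr.v where
  map := map_v
  lift := fun {E'} _ _ _ {u x} hu => by
    obtain ⟨f, hf, hfu⟩ := (S2II.lifts_Fr F hD hB hdiam hP).lift hu
    refine ⟨fun s => (f s).p0, ?_, ?_⟩
    · exact ⟨hf.1, hf.2 0⟩
    · exact hfu

variable {ι : Type} [Fintype ι] [DecidableEq ι]

variable {F : Facts e} {hD : 0 < D} {hB : InjGE e D} {hdiam : ∀ p q : M, dist p q ≤ D}
  {l : ℕ} {X δ : ι → UT E M → E} {ε : ℝ}

/-- the zero vector over a geodesic -/
def zX (F : Facts e) (D : ℝ) (X δ : ι → UT E M → E) (ε : ℝ) (v : UT E M) : Xi F D X δ ε :=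
  ⟨v, 0, map_zero _⟩

variable (hP : ∀ x y : M, dist x y = D → finrank ℝ (H775.Pl e D x y) = l + 1)
  (h : Fam F hD hB hdiam l X δ ε)

open Classical in
/-- the direction of a vector, with a default value for the zero vectors -/
def dirT (b₀ : Pr e D) (p : Xi F D X δ ε) : Pr e D :=
  if hp : p.a ≠ 0 then dir hP h ⟨p, hp⟩ else b₀

theorem dirT_ne (b₀ : Pr e D) (p : Xi F D X δ ε) (hp : p.a ≠ 0) :
    dirT hP h b₀ p = dir hP h ⟨p, hp⟩ := by
  unfold dirT
  rw [dif_pos hp]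

theorem ne_of_nq {p : Xi F D X δ ε} (hp : 0 < ‖p.a‖ ^ 2) : p.a ≠ 0 := by
  intro h0
  rw [h0, norm_zero] at hp
  norm_num at hp

/-- the total space of the negative bundle in polar coordinates -/
def radXi (b₀ : Pr e D) : Rad (dUT E M) (dPr e D) (dXi F D X δ ε) (2 * D) where
  ΦU := phi F
  fU := isFlow_phi F hD hB hdiam
  ΦS := Lam hP h
  fS := isFlow_Lam hP h
  Φ := flXi F hD hB hdiam X δ ε
  flow := isFlow_flXi F hD hB hdiam X δ ε
  p := Xi.v
  hp := map_Xi_v
  pΦ := fun _ _ => rfl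
  z := zX F D X δ ε
  hz := fun {E'} _ _ _ {u x} hu => ⟨hu, Sm.of_contDiff contDiff_const _⟩
  sc := fun q => Xi.smul q.2 q.1
  hsc := map_Xi_smul
  scΦ := fun x s t => rfl
  sc0 := fun x => Xi.ext rfl (zero_smul ℝ x.a)
  sc1 := Xi.one_smul'
  ϖ := Pr.v
  hϖ := map_v
  pol := pol hP h
  hpol := map_pol hP h
  scpol := fun b R s => (smul_pol hP h s b R).trans (by rw [mul_comm])
  ppol := fun _ _ => rfl
  nq := fun p => ‖p.a‖ ^ 2
  hnq := fun {E'} _ _ _ {u x} hu => by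
    have h1 : Sm (fun s => (u s).a) x := hu.2
    change Sm (fun s => ‖(u s).a‖ ^ 2) x
    filter_upwards [h1] with s hs using hs.norm_sq ℝ
  nqΦ := fun _ _ => rfl
  nqpol := fun b R => by
    rw [pol_a, norm_smul, norm_ah hP h, mul_one, Real.norm_eq_abs, sq_abs]
  dir := dirT hP h b₀
  hdir := fun {E'} _ _ _ {u x} hu => by
    have hx : (u x).a ≠ 0 := ne_of_nq hu.2.self_of_nhds
    obtain ⟨P, hP1, hP2⟩ := exists_dir hP h hu.1 hx
    refine (dPr e D).congr hP1 ?_
    filter_upwards [hu.2] with s hs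
    have hs' : (u s).a ≠ 0 := ne_of_nq hs
    change P s = dirT hP h b₀ (u s)
    rw [hP2 s hs', dirT_ne hP h b₀ (u s) hs']
  dirΦ := fun p hp t => by
    have hp' : p.a ≠ 0 := ne_of_nq hp
    rw [dirT_ne hP h b₀ p hp', Lam_dir hP h ⟨p, hp'⟩ t]
    exact dirT_ne hP h b₀ _ _
  poldir := fun p hp => by
    have hp' : p.a ≠ 0 := ne_of_nq hp
    rw [dirT_ne hP h b₀ p hp', Real.sqrt_sq (norm_nonneg _)]
    exact pol_dir hP h ⟨p, hp'⟩

/-- the contact form on the total space -/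
theorem pull_flXi_alpha : Form.pull (flXi F hD hB hdiam X δ ε)
    (isFlow_flXi F hD hB hdiam X δ ε).map (Form.pull Xi.v map_Xi_v (CV.alpha E M)) =
      pr (Form.pull Xi.v map_Xi_v (CV.alpha E M)) + dt := by
  have h1 := flow_nat (isFlow_flXi F hD hB hdiam X δ ε).map (map_phi F)
    (map_Xi_v (F := F) (D := D) (X := X) (δ := δ) (ε := ε)) (fun x t => rfl) (CV.alpha E M)
  rw [← h1, CV.pull_phi_alpha F]
  refine (pull_add (map_cyl map_Xi_v) _ _).trans ?_
  rw [pull_pr map_Xi_v, pull_dt map_Xi_v]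

/-- **the family of loops of a map on the total space** -/
def lfX (F : Facts e) (hD : 0 < D) (hB : InjGE e D) (hdiam : ∀ p q : M, dist p q ≤ D)
    (X δ : ι → UT E M → E) (ε : ℝ) {C : Xi F D X δ ε → M} (hC : (dXi F D X δ ε).Map (dM E M) C) :
    S3G.Lf (dXi F D X δ ε) (dM E M) (2 * D) where
  Φ := flXi F hD hB hdiam X δ ε
  flow := isFlow_flXi F hD hB hdiam X δ ε
  α := Form.pull Xi.v map_Xi_v (CV.alpha E M)
  con := pull_flXi_alpha
  odd := by
    rw [← Form.pull_sg, CV.isDeg_alpha.sg_of_odd (by norm_num), pull_neg]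
  C := C
  map := hC

variable {r : ℝ} {C : Xi F D X δ ε → M}

/-- the natural form vanishes outside the disc bundle -/
theorem ta_lfX_val (hC : StdX F hD hB hdiam X δ ε r C) {A0 C0 : ℝ} {W : Form (dM E M)}
    {V : Type} [NormedAddCommGroup V] [NormedSpace ℝ V] [FiniteDimensional ℝ V]
    {v : V → Xi F D X δ ε} {y : V} (hv : (dXi F D X δ ε).At v y)
    (h1 : ∀ᶠ s in 𝓝 y, 1 ≤ ‖(v s).a‖) :
    ((lfX F hD hB hdiam X δ ε hC.map).ta A0 C0 W).val v y = 0 := by
  have hO : ∀ x ∈ {p : Xi F D X δ ε | 1 ≤ ‖p.a‖}, ∀ t,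
      (lfX F hD hB hdiam X δ ε hC.map).Φ (x, t) ∈ {p : Xi F D X δ ε | 1 ≤ ‖p.a‖} :=
    fun x hx t => hx
  refine S3G.val_eq_zero (O := {p : Xi F D X δ ε | 1 ≤ ‖p.a‖}) _ ?_ hv h1
  rw [S3G.Lf.ta_pull (L := (lfX F hD hB hdiam X δ ε hC.map).sub hO) S3G.map_inc
    (fun x t => rfl) rfl (fun x => rfl)]
  exact S3G.Lf.ta_inv _ (fun x t => hC.inv x.1 t x.2)

/-- **the primitive of the natural form of the standard family** -/
theorem exists_lX [NeZero l] (hC : StdX F hD hB hdiam X δ ε r C) {A0 C0 : ℝ}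
    {W : Form (dM E M)} (hW : S3G.Cf W) {w : Form (dUT E M)}
    (hw : Basic (phi F) (isFlow_phi F hD hB hdiam).map w) {m : Form (dPr e D)}
    (hm : Basic (Lam hP h) (isFlow_Lam hP h).map m)
    {g : Pr e D × ℝ → M} (hg : ((dPr e D).prod (Dif.lin ℝ)).Map (dM E M) g)
    (hgC : ∀ q, g q = C (pol hP h q))
    (hK : Form.K (tau A0 C0 (cflow (Lam hP h)) (map_cflow (isFlow_Lam hP h).map) (2 * D)
      (pr (Form.pull Pr.v map_v (CV.alpha E M))) (Form.pull g hg W)) =
        Form.pull Pr.v map_v w + m.d) :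
    ∃ lX : Form (dXi F D X δ ε),
      Basic (flXi F hD hB hdiam X δ ε) (isFlow_flXi F hD hB hdiam X δ ε).map lX ∧
      lX.d = (lfX F hD hB hdiam X δ ε hC.map).ta A0 C0 W ∧
      ∀ {V : Type} [NormedAddCommGroup V] [NormedSpace ℝ V] [FiniteDimensional ℝ V]
        {v : V → Xi F D X δ ε} {y : V}, (dXi F D X δ ε).At v y →
        (∀ᶠ s in 𝓝 y, 1 ≤ ‖(v s).a‖) → lX.val v y = 0 := by
  have h2 : (2 * D) ≠ 0 := mul_ne_zero two_ne_zero hD.ne'
  set L := lfX F hD hB hdiam X δ ε hC.map with hL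
  by_cases hne : Nonempty (Pr e D)
  · obtain ⟨b₀⟩ := hne
    have hpolL : Form.pull (pol hP h) (map_pol hP h) (L.ta A0 C0 W) =
        tau A0 C0 (cflow (Lam hP h)) (map_cflow (isFlow_Lam hP h).map) (2 * D)
          (pr (Form.pull Pr.v map_v (CV.alpha E M))) (Form.pull g hg W) := by
      have hα : pr (Form.pull Pr.v map_v (CV.alpha E M)) =
          Form.pull (pol hP h) (map_pol hP h) (Form.pull Xi.v map_Xi_v (CV.alpha E M)) := by
        have hk : ((dPr e D).prod (Dif.lin ℝ)).Map (dUT E M) (fun q : Pr e D × ℝ => q.1.v) :=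
          fun {E'} _ _ _ {u x} hu => map_v hu.1
        exact (H584.pull_pull Dif.map_fst map_v hk (fun _ => rfl) (CV.alpha E M)).trans
          (H584.pull_pull (map_pol hP h) map_Xi_v hk (fun _ => rfl) (CV.alpha E M)).symm
      rw [S3G.Lf.ta, pull_tau (isFlow_cflow (isFlow_Lam hP h)).map L.flow.map (map_pol hP h)
        (fun q t => pol_Lam hP h q.1 q.2 t), hα]
      congr 1
      exact H584.pull_pull (map_pol hP h) L.map hg (fun q => (hgC q).symm) W
    have hsq : ∀ {V : Type} [NormedAddCommGroup V] [NormedSpace ℝ V] [FiniteDimensional ℝ V]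
        {v : V → Xi F D X δ ε} {y : V}, (∀ᶠ s in 𝓝 y, 1 ≤ ‖(v s).a‖ ^ 2) →
        ∀ᶠ s in 𝓝 y, 1 ≤ ‖(v s).a‖ := fun {V} _ _ _ {v y} h1 => h1.mono fun s hs => by
      by_contra hlt
      have h3 := norm_nonneg (v s).a
      have h4 := not_le.1 hlt
      nlinarith
    obtain ⟨lX, k1, k2, k3⟩ := (radXi hP h b₀).exists_lam (τ := L.ta A0 C0 W) (L.ta_d h2 hW)
      (L.ta_basic hW) (fun {V} _ _ _ {v y} hv h1 => ta_lfX_val hC hv (hsq h1)) hw hm
      (by
        rw [← hpolL] at hK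
        exact hK)
      (fun a ha => Co.pull_inj (quo_v F hD hB hdiam hP)
        (Eq.trans ha (H584.pull_zero (quo_v F hD hB hdiam hP).map).symm))
    refine ⟨lX, k1, k2, fun {V} _ _ _ {v y} hv h1 => k3 hv (h1.mono fun s hs => ?_)⟩
    change 1 ≤ ‖(v s).a‖ ^ 2
    nlinarith
  · have h0 : ∀ p : Xi F D X δ ε, False := fun p => by
      have hp : (dUT E M).At (fun _ : ℝ => p.v) 0 := H583.at_const p.v 0
      obtain ⟨v, hv, -⟩ := (quo_v F hD hB hdiam hP).lift hp
      exact hne ⟨v 0⟩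
    refine ⟨0, ?_, ?_, fun {V} _ _ _ {v y} hv h1 => (h0 (v y)).elim⟩
    · exact Basic.zero
    · exact Form.ext_val fun V _ _ _ u x hu => (h0 (u x)).elim

end

end Vale.Agent.P231.S3D
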