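import Vale.Agent.P231.S3D.Pm
import Vale.Agent.P231.S3G.Ta
import Vale.Agent.P231.Co.On

/-!
# P231, stage 3: a closed basic form on the total space of the negative bundle which vanishes
outside the disc bundle is the differential of such a form, if its radial integral is trivial
-/

set_option linter.unusedSectionVars false
set_option linter.unusedVariables false

open MeasureTheory Set Module Filter Topology
open scoped ContDiff

namespace Vale.Agent.P231.S3D

open Fm W H584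
open Co (Van)

variable {U S X : Type*}

/-- polar coordinates on the total space of a vector bundle, with flows -/
structure Rad (dU : Dif U) (dS : Dif S) (dX : Dif X) (T : ℝ) where
  ΦU : U × ℝ → U
  fU : IsFlow dU T ΦU
  ΦS : S × ℝ → S
  fS : IsFlow dS T ΦS
  Φ : X × ℝ → X
  flow : IsFlow dX T Φ
  p : X → U
  hp : dX.Map dU p
  pΦ : ∀ x t, p (Φ (x, t)) = ΦU (p x, t)
  z : U → X
  hz : dU.Map dX z
  sc : X × ℝ → X
  hsc : (dX.prod (Dif.lin ℝ)).Map dX sc
  scΦ : ∀ x s t, sc (Φ (x, t), s) = Φ (sc (x, s), t)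
  sc0 : ∀ x, sc (x, 0) = z (p x)
  sc1 : ∀ x, sc (x, 1) = x
  ϖ : S → U
  hϖ : dS.Map dU ϖ
  pol : S × ℝ → X
  hpol : (dS.prod (Dif.lin ℝ)).Map dX pol
  scpol : ∀ b R s, sc (pol (b, R), s) = pol (b, R * s)
  ppol : ∀ b R, p (pol (b, R)) = ϖ b
  nq : X → ℝ
  hnq : dX.Map (Dif.lin ℝ) nq
  nqΦ : ∀ x t, nq (Φ (x, t)) = nq x
  nqpol : ∀ b R, nq (pol (b, R)) = R ^ 2
  dir : X → S
  hdir : (dX.on {x | 0 < nq x}).Map dS dir
  dirΦ : ∀ x, 0 < nq x → ∀ t, dir (Φ (x, t)) = ΦS (dir x, t)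
  poldir : ∀ x, 0 < nq x → pol (dir x, Real.sqrt (nq x)) = x

namespace Rad

variable {dU : Dif U} {dS : Dif S} {dX : Dif X} {T : ℝ} (R : Rad dU dS dX T)

theorem pol_zero (b : S) : R.pol (b, 0) = R.z (R.ϖ b) := by
  have h1 := R.scpol b 1 0
  rw [R.sc0, R.ppol, mul_zero] at h1
  exact h1.symm

/-- the cut-off function -/
noncomputable def chi (t : ℝ) : ℝ := Real.smoothTransition (4 * t - 1)

theorem contDiff_chi : ContDiff ℝ ∞ chi :=
  Real.smoothTransition.contDiff.comp ((contDiff_const.mul contDiff_id).sub contDiff_const)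

theorem chi_zero {t : ℝ} (h : t ≤ 1 / 4) : chi t = 0 :=
  Real.smoothTransition.zero_of_nonpos (by linarith)

theorem chi_one {t : ℝ} (h : 1 / 2 ≤ t) : chi t = 1 :=
  Real.smoothTransition.one_of_one_le (by linarith)

theorem map_chi : dX.Map (Dif.lin ℝ) (fun x => chi (R.nq x)) := fun {E} _ _ _ {u x} h =>
  Sm.comp (f := chi) (g := fun y => R.nq (u y)) (Sm.of_contDiff contDiff_chi _) (R.hnq h)

/-- the cut-off as a form -/
noncomputable def th : Form dX := Form.fn (fun x => chi (R.nq x)) R.map_chi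

theorem th_supp : R.th.Supp {x | 0 < R.nq x} := by
  refine Form.supp_fn_comp (ρ := R.nq) R.hnq R.map_chi (V := Ioi 0) isOpen_Ioi fun t ht => ?_
  have h1 : t < 1 / 4 := by
    have h2 : t ≤ 0 := not_lt.1 ht
    linarith
  filter_upwards [gt_mem_nhds h1] with s hs using chi_zero hs.le

/-- the cut off extension of a form on the sphere bundle -/
noncomputable def ext0 (m : Form dS) : Form dX :=
  Form.mx R.th R.th_supp (Form.pull R.dir R.hdir m)

section Val

variable {E : Type} [NormedAddCommGroup E] [NormedSpace ℝ E] [FiniteDimensional ℝ E]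

theorem th_val {u : E → X} {x : E} (h : dX.At u x) :
    R.th.val u x = algebraMap ℝ (Lam E) (chi (R.nq (u x))) := Form.fn_val _ _ h

theorem ext0_val (m : Form dS) {u : E → X} {x : E} (h : dX.At u x)
    (h0 : ∀ᶠ y in 𝓝 x, 0 < R.nq (u y)) : (R.ext0 m).val u x =
      algebraMap ℝ (Lam E) (chi (R.nq (u x))) * m.val (R.dir ∘ u) x := by
  have h2 : (dX.on {x | 0 < R.nq x}).At u x := ⟨h, h0⟩
  rw [ext0, Form.mx_val, R.th_val h, Form.pull_val _ _ h2]

theorem ext0_val_zero (m : Form dS) {u : E → X} {x : E} (h : dX.At u x)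
    (h0 : R.nq (u x) ≤ 0) : (R.ext0 m).val u x = 0 := by
  rw [ext0, Form.mx_val, R.th_val h, chi_zero (by linarith), map_zero, zero_mul]

theorem ev_pos {u : E → X} {x : E} (h : dX.At u x) (h0 : 0 < R.nq (u x)) :
    ∀ᶠ y in 𝓝 x, 0 < R.nq (u y) := by
  have hc : ContinuousAt (R.nq ∘ u) x := Sm.continuousAt (R.hnq h)
  exact hc.eventually (lt_mem_nhds h0)

end Val

theorem ext0_basic {m : Form dS} (hm : Basic R.ΦS R.fS.map m) :
    Basic R.Φ R.flow.map (R.ext0 m) := by
  rw [basic_def]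
  refine Form.ext_val fun E _ _ _ u x hu => ?_
  have h1 : dX.At (R.Φ ∘ u) x := R.flow.map hu
  have h2 : dX.At (fun y => (u y).1) x := hu.1
  have hpr : (pr (R.ext0 m)).val u x = (R.ext0 m).val (fun y => (u y).1) x :=
    Form.pull_val (f := Prod.fst) (D := dX.prod (Dif.lin ℝ)) Dif.map_fst (R.ext0 m) hu
  rw [Form.pull_val R.flow.map (R.ext0 m) hu, hpr]
  have hn : ∀ y, R.nq ((R.Φ ∘ u) y) = R.nq (u y).1 := fun y => R.nqΦ _ _
  by_cases h0 : 0 < R.nq (u x).1
  · have h3 := R.ev_pos (u := fun y => (u y).1) h2 h0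
    have h4 : ∀ᶠ y in 𝓝 x, 0 < R.nq ((R.Φ ∘ u) y) := h3.mono fun y hy => by rw [hn]; exact hy
    rw [R.ext0_val m h1 h4, R.ext0_val m h2 h3, hn]
    congr 1
    have h5 : dS.At (R.dir ∘ fun y => (u y).1) x := R.hdir ⟨h2, h3⟩
    have h6 : (dS.prod (Dif.lin ℝ)).At (fun y => (R.dir (u y).1, (u y).2)) x := ⟨h5, hu.2⟩
    have h7 : m.val (R.dir ∘ R.Φ ∘ u) x =
        m.val (R.ΦS ∘ fun y => (R.dir (u y).1, (u y).2)) x := by
      refine m.congr (R.hdir ⟨h1, h4⟩) ?_
      filter_upwards [h3] with y hy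
      exact R.dirΦ _ hy _
    rw [h7, ← Form.pull_val R.fS.map m h6, show Form.pull R.ΦS R.fS.map m = pr m from hm]
    exact Form.pull_val (f := Prod.fst) (D := dS.prod (Dif.lin ℝ)) Dif.map_fst m h6
  · rw [R.ext0_val_zero m h1 (by rw [hn]; exact not_lt.1 h0), R.ext0_val_zero m h2 (not_lt.1 h0)]

/-- the radial primitive -/
noncomputable def mu (τ : Form dX) : Form dX := Form.K (Form.pull R.sc R.hsc τ)

theorem mu_basic {τ : Form dX} (hτ : Basic R.Φ R.flow.map τ) : Basic R.Φ R.flow.map (R.mu τ) :=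
  basic_K (Basic.pull (isFlow_cflow R.flow).map R.flow.map R.hsc
    (fun x t => R.scΦ x.1 x.2 t) hτ)

theorem mu_d {τ : Form dX} (hτ : τ.d = 0) : (R.mu τ).d =
    τ - Form.pull R.p R.hp (Form.pull R.z R.hz τ) := by
  have h := homotopy' (Form.pull R.sc R.hsc τ)
  rw [← Form.pull_d, hτ, pull_zero, K_zero, zero_add] at h
  have h1 : at_ 1 (Form.pull R.sc R.hsc τ) = τ := by
    refine (pull_pull (k := fun x => x) (Form.map_slice 1) R.hsc (fun h => h)
      (fun x => R.sc1 x) τ).trans ?_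
    exact Form.pull_id _ τ
  have h2 : at_ 0 (Form.pull R.sc R.hsc τ) = Form.pull R.p R.hp (Form.pull R.z R.hz τ) := by
    have hk : dX.Map dX (fun x => R.z (R.p x)) := R.hz.comp R.hp
    exact (pull_pull (Form.map_slice 0) R.hsc hk (fun x => R.sc0 x) τ).trans
      (pull_pull R.hp R.hz hk (fun _ => rfl) τ).symm
  rw [h1, h2] at h
  exact h.symm

theorem pol_mu (τ : Form dX) : Form.pull R.pol R.hpol (R.mu τ) =
    Pm (Form.pull R.pol R.hpol τ) := by
  rw [mu, ← K_nat, Pm]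
  congr 1
  have hk : ((dS.prod (Dif.lin ℝ)).prod (Dif.lin ℝ)).Map dX
      (fun q : (S × ℝ) × ℝ => R.pol (q.1.1, q.1.2 * q.2)) := R.hpol.comp map_scal
  exact (pull_pull (map_cyl R.hpol) R.hsc hk (fun q => R.scpol _ _ _) τ).trans
    (pull_pull map_scal R.hpol hk (fun _ => rfl) τ).symm

/-- **the primitive** -/
theorem exists_lam {τ : Form dX} (hτd : τ.d = 0) (hτb : Basic R.Φ R.flow.map τ)
    (hτ1 : ∀ {E : Type} [NormedAddCommGroup E] [NormedSpace ℝ E] [FiniteDimensional ℝ E]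
      {v : E → X} {y : E}, dX.At v y → (∀ᶠ s in 𝓝 y, 1 ≤ R.nq (v s)) → τ.val v y = 0)
    {w : Form dU} (hw : Basic R.ΦU R.fU.map w) {m : Form dS} (hm : Basic R.ΦS R.fS.map m)
    (hK : Form.K (Form.pull R.pol R.hpol τ) = Form.pull R.ϖ R.hϖ w + m.d)
    (hinj : ∀ a : Form dU, Form.pull R.ϖ R.hϖ a = 0 → a = 0) :
    ∃ lX : Form dX, Basic R.Φ R.flow.map lX ∧ lX.d = τ ∧
      ∀ {E : Type} [NormedAddCommGroup E] [NormedSpace ℝ E] [FiniteDimensional ℝ E]
        {v : E → X} {y : E}, dX.At v y → (∀ᶠ s in 𝓝 y, 1 ≤ R.nq (v s)) → lX.val v y = 0 := by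
  set τ' := Form.pull R.pol R.hpol τ with hτ'
  -- the differential of `w`
  have hwz : w.d = -Form.pull R.z R.hz τ := by
    have h := homotopy' τ'
    have h0 : τ'.d = 0 := by rw [hτ', ← Form.pull_d, hτd, pull_zero]
    have h1 : at_ 1 τ' = 0 := Form.ext_val fun E _ _ _ u x hu => by
      have hp1 : (dS.prod (Dif.lin ℝ)).At (fun y => (u y, (1 : ℝ))) x := Form.map_slice 1 hu
      change (Form.pull (fun b : S => (b, (1 : ℝ))) (Form.map_slice 1) τ').val u x = _
      rw [Form.pull_val _ _ hu]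
      change τ'.val (fun y => (u y, (1 : ℝ))) x = _
      rw [hτ', Form.pull_val _ _ hp1, Form.zero_val]
      refine hτ1 (R.hpol hp1) (Eventually.of_forall fun s => ?_)
      change 1 ≤ R.nq (R.pol (u s, 1))
      rw [R.nqpol]
      norm_num
    have h2 : at_ 0 τ' = Form.pull R.ϖ R.hϖ (Form.pull R.z R.hz τ) := by
      have hk : dS.Map dX (fun b => R.z (R.ϖ b)) := R.hz.comp R.hϖ
      exact (pull_pull (Form.map_slice 0) R.hpol hk (fun b => R.pol_zero b) τ).trans
        (pull_pull R.hϖ R.hz hk (fun _ => rfl) τ).symm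
    rw [h0, K_zero, zero_add, h1, h2, hK, Form.d_add, Form.d_d, add_zero, zero_sub,
      ← Form.pull_d] at h
    have h3 : Form.pull R.ϖ R.hϖ (w.d + Form.pull R.z R.hz τ) = 0 := by
      rw [pull_add, ← h, neg_add_cancel]
    exact eq_neg_of_add_eq_zero_left (hinj _ h3)
  refine ⟨R.mu τ - Form.pull R.p R.hp w - (R.ext0 m).d, ?_, ?_, ?_⟩
  · exact Basic.sub (Basic.sub (R.mu_basic hτb)
      (Basic.pull R.flow.map R.fU.map R.hp R.pΦ hw)) (Basic.d (R.ext0_basic hm))
  · rw [Form.d_sub, Form.d_sub, Form.d_d, sub_zero, R.mu_d hτd, ← Form.pull_d, hwz, pull_neg,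
      sub_neg_eq_add, sub_add_cancel]
  · intro E _ _ _ v y hv h1
    have h0 : ∀ᶠ s in 𝓝 y, 0 < R.nq (v s) := h1.mono fun s hs => lt_of_lt_of_le one_pos hs
    have hP : dS.At (R.dir ∘ v) y := R.hdir ⟨hv, h0⟩
    have hρ : Sm (fun s => Real.sqrt (R.nq (v s))) y := by
      have h2 : Sm (fun s => R.nq (v s)) y := R.hnq hv
      filter_upwards [h2, h0] with s hs hs0
      exact ContDiffAt.sqrt hs hs0.ne'
    have hPρ : (dS.prod (Dif.lin ℝ)).At
        (fun s => ((R.dir ∘ v) s, Real.sqrt (R.nq (v s)))) y := ⟨hP, hρ⟩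
    have hvp : v =ᶠ[𝓝 y] R.pol ∘ fun s => ((R.dir ∘ v) s, Real.sqrt (R.nq (v s))) := by
      filter_upwards [h0] with s hs using (R.poldir _ hs).symm
    have hVan : Van {p : S × ℝ | 1 < p.2} τ' := ⟨fun {E'} _ _ _ {u x} hu hx => by
      rw [hτ', Form.pull_val _ _ hu]
      refine hτ1 (R.hpol hu) ?_
      have h3 : ContinuousAt (fun s => (u s).2) x := Sm.continuousAt hu.2
      filter_upwards [h3.eventually (lt_mem_nhds (show (1 : ℝ) < (u x).2 from hx))] with s hs
      change 1 ≤ R.nq (R.pol (u s))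
      rw [← Prod.mk.eta (p := u s), R.nqpol]
      nlinarith⟩
    have hρ1 : 1 ≤ Real.sqrt (R.nq (v y)) := Real.one_le_sqrt.2 h1.self_of_nhds
    -- the three terms
    have e1 : (R.mu τ).val v y = (Form.pull R.ϖ R.hϖ w).val (R.dir ∘ v) y +
        m.d.val (R.dir ∘ v) y := by
      have h4 : (R.mu τ).val v y = (Form.pull R.pol R.hpol (R.mu τ)).val
          (fun s => ((R.dir ∘ v) s, Real.sqrt (R.nq (v s)))) y := by
        rw [Form.pull_val _ _ hPρ]
        exact (R.mu τ).congr hv hvp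
      rw [h4, R.pol_mu, Pm_val_far hVan hP hρ hρ1, hK, Form.add_val]
    have e2 : (Form.pull R.p R.hp w).val v y = (Form.pull R.ϖ R.hϖ w).val (R.dir ∘ v) y := by
      rw [Form.pull_val _ _ hv, Form.pull_val _ _ hP]
      refine w.congr (R.hp hv) ?_
      filter_upwards [hvp] with s hs
      change R.p (v s) = R.ϖ (R.dir (v s))
      rw [← R.ppol (R.dir (v s)) (Real.sqrt (R.nq (v s)))]
      exact congrArg R.p hs
    have e3 : (R.ext0 m).d.val v y = m.d.val (R.dir ∘ v) y := by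
      rw [Form.d_val _ hv, Form.d_val _ hP]
      refine extd_congr ?_
      filter_upwards [h1, dX.open' hv, h1.eventually_nhds] with s hs hvs hs2
      rw [R.ext0_val m hvs (hs2.mono fun z hz => lt_of_lt_of_le one_pos hz),
        chi_one (by linarith), map_one, one_mul]
    rw [Form.sub_val, Form.sub_val, e1, e2, e3]
    abel

end Rad

end Vale.Agent.P231.S3D
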