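import Vale.Agent.P231.H584.Mod
import Vale.Agent.P231.Co.Thom

/-!
# P231, stage 3: the radial primitive

The radial primitive of a closed form of the total space of a vector bundle, which vanishes outside
a disc bundle, in polar coordinates.
-/

set_option linter.unusedSectionVars false
set_option linter.unusedVariables false

open MeasureTheory Set Module Filter Topology
open scoped ContDiff

namespace Vale.Agent.P231.S3D

open Fm W H584
open Co (Van)

variable {X Y : Type*} {D : Dif X} {D' : Dif Y}

/-- contraction of a form in a plot of the type `(u, a + b t)` with variable coefficients -/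
theorem co_shear' {E : Type} [NormedAddCommGroup E] [NormedSpace ℝ E]
    [FiniteDimensional ℝ E] (w : Form (D.prod (Dif.lin ℝ))) {u : E → X} {b : E → ℝ} {x : E}
    (h : D.At u x) (hb : Sm b x) (t : ℝ) :
    at1 (w.val (fun p : E × ℝ => (u p.1, b p.1 * p.2)) (x, t)) =
      b x • co w u x (b x * t) := by
  let G : E × ℝ → E × ℝ := fun p => (p.1, b p.1 * p.2)
  have h1 : (fun p : E × ℝ => (u p.1, b p.1 * p.2)) = Form.cyl u ∘ G := rfl
  have hb' : Sm (fun p : E × ℝ => b p.1) (x, t) :=
    Sm.comp (f := b) (g := Prod.fst) (x := ((x, t) : E × ℝ)) hb (Sm.of_contDiff contDiff_fst _)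
  have hb2 : Sm (fun p : E × ℝ => b p.1 * p.2) (x, t) := by
    filter_upwards [hb'] with p hp
    exact hp.mul contDiffAt_snd
  have h2 : Sm G (x, t) := (Sm.of_contDiff contDiff_fst _).prodMk hb2
  have h3 : HasFDerivAt G ((ContinuousLinearMap.fst ℝ E ℝ).prod
      (b x • ContinuousLinearMap.snd ℝ E ℝ +
        t • ((fderiv ℝ b x).comp (ContinuousLinearMap.fst ℝ E ℝ)))) (x, t) := by
    have h5 : HasFDerivAt (fun p : E × ℝ => b p.1)
        ((fderiv ℝ b x).comp (ContinuousLinearMap.fst ℝ E ℝ)) (x, t) :=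
      HasFDerivAt.comp (x, t) (f := Prod.fst) hb.differentiableAt.hasFDerivAt hasFDerivAt_fst
    exact hasFDerivAt_fst.prodMk (h5.mul hasFDerivAt_snd)
  rw [h1, w.nat (u := Form.cyl u) (g := G) (x := (x, t)) (Form.cyl_at h _) h2, h3.fderiv]
  have h4 := at1_pull_shear (ContinuousLinearMap.id ℝ E) (t • fderiv ℝ b x) (b x)
    ((ContinuousLinearMap.fst ℝ E ℝ).prod (b x • ContinuousLinearMap.snd ℝ E ℝ +
        t • ((fderiv ℝ b x).comp (ContinuousLinearMap.fst ℝ E ℝ)))) (fun p => by
          simp [add_comm]) (w.val (Form.cyl u) (G (x, t)))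
  rw [Fm.pull_id] at h4
  exact h4

/-- the radial primitive in a plot -/
theorem Pm_val {E : Type} [NormedAddCommGroup E] [NormedSpace ℝ E] [FiniteDimensional ℝ E]
    (w : Form (D.prod (Dif.lin ℝ))) {u : E → X} {b : E → ℝ} {x : E}
    (h : D.At u x) (hb : Sm b x) :
    (Pm w).val (fun y => (u y, b y)) x = ∫ t in (0 : ℝ)..b x, co w u x t := by
  have h0 : (D.prod (Dif.lin ℝ)).At (fun y => (u y, b y)) x := ⟨h, hb⟩
  rw [Pm, K_val' _ h0]
  have h1 : ∀ t : ℝ, co (Form.pull scal map_scal w) (fun y => (u y, b y)) x t =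
      b x • co w u x (b x * t) := fun t => by
    rw [co, Form.pull_val _ _ (Form.cyl_at h0 t)]
    exact co_shear' w h hb t
  simp only [h1]
  rw [intervalIntegral.integral_smul, intervalIntegral.smul_integral_comp_mul_left, mul_zero,
    mul_one]

/-- the contraction of a form which vanishes at large radii -/
theorem co_eq_zero {E : Type} [NormedAddCommGroup E] [NormedSpace ℝ E] [FiniteDimensional ℝ E]
    {w : Form (D.prod (Dif.lin ℝ))} {c : ℝ} (hw : Van {p : X × ℝ | c < p.2} w) {u : E → X}
    {x : E} (h : D.At u x) {t : ℝ} (ht : c < t) : co w u x t = 0 := by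
  have h1 : w.val (Form.cyl u) (x, t) = 0 := hw.out (Form.cyl_at h t) ht
  rw [co, h1, map_zero]

/-- the radial primitive beyond the support -/
theorem Pm_val_far {E : Type} [NormedAddCommGroup E] [NormedSpace ℝ E] [FiniteDimensional ℝ E]
    {w : Form (D.prod (Dif.lin ℝ))} (hw : Van {p : X × ℝ | 1 < p.2} w) {u : E → X}
    {b : E → ℝ} {x : E} (h : D.At u x) (hb : Sm b x) (hx : 1 ≤ b x) :
    (Pm w).val (fun y => (u y, b y)) x = (Form.K w).val u x := by
  rw [Pm_val w h hb, K_val' _ h]
  have h2 : ∫ t in (1 : ℝ)..b x, co w u x t = 0 := by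
    rw [intervalIntegral.integral_of_le hx]
    refine (MeasureTheory.setIntegral_congr_fun measurableSet_Ioc fun t ht =>
      co_eq_zero hw h ht.1).trans ?_
    simp
  have hc : ∀ a b : ℝ, IntervalIntegrable (fun t => co w u x t) volume a b := fun a b =>
    (continuous_co w h).intervalIntegrable a b
  rw [← intervalIntegral.integral_add_adjacent_intervals (hc 0 1) (hc 1 (b x)), h2, add_zero]

end Vale.Agent.P231.S3D
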